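import Vale.Agent.P031.Sieve.Forms

/-!
# P031: Selberg's bound for primes in linear forms, uniform in the coefficients
-/

namespace Vale.Agent.P031.Sieve

open Finset

/-- A product of distinct primes is squarefree. -/
theorem squarefree_prod_primes {S : Finset ℕ} (hS : ∀ p ∈ S, p.Prime) :
    Squarefree (∏ p ∈ S, p) := by
  induction S using Finset.induction_on with
  | empty => simp
  | insert q T hq ih =>
    rw [prod_insert hq]
    have hq' := hS q (mem_insert_self _ _)
    refine (Nat.squarefree_mul ?_).2 ⟨hq'.squarefree, ih fun p hp => hS p (mem_insert_of_mem hp)⟩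
    exact Nat.Coprime.prod_right fun p hp =>
      (Nat.coprime_primes hq' (hS p (mem_insert_of_mem hp))).2 fun h => hq (h ▸ hp)

/-- The primes `m ≤ X` with every `f * m + 1` prime, `f ∈ F`, number at most a constant times
`X (log log N) ^ (8 L) / (log X) ^ L`, where `L = #F + 1` and `N = bad F`. -/
theorem forms_bound (k : ℕ) : ∃ C : ℝ, 0 ≤ C ∧ ∀ (X : ℕ) (F : Finset ℕ), 2 ≤ X → F.card = k → 0 ∉ F →
    (((Icc 1 X).filter fun m => m.Prime ∧ ∀ f ∈ F, (f * m + 1).Prime).card : ℝ) ≤
      C * X * Real.log (Real.log (bad F) + 3) ^ (8 * (k + 1)) / Real.log X ^ (k + 1) := by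
  set L := k + 1 with hL
  obtain ⟨E, hE, hEu⟩ := euler_prod_le
  obtain ⟨X0, hX0⟩ : ∃ X0 : ℕ, ∀ X : ℕ, X0 ≤ X →
      Real.log X ^ L ≤ (X : ℝ) ^ ((1 : ℝ) / 7) ∧ (2 : ℝ) ≤ X := by
    refine Filter.eventually_atTop.1 ?_
    have h := ((isLittleO_log_rpow_rpow_atTop (L : ℝ) (by norm_num : (0 : ℝ) < 1 / 7)).bound
      (zero_lt_one' ℝ)).and (Filter.eventually_ge_atTop (2 : ℝ))
    filter_upwards [tendsto_natCast_atTop_atTop.eventually h] with X hX
    obtain ⟨h1, h2⟩ := hX
    refine ⟨?_, h2⟩
    rw [Real.norm_eq_abs, Real.norm_eq_abs, one_mul, Real.rpow_natCast,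
      abs_of_nonneg (Real.rpow_nonneg (show (0 : ℝ) ≤ (X : ℝ) by positivity) ((1 : ℝ) / 7))] at h1
    exact (le_abs_self _).trans h1
  set B : ℝ := (7 * L * E) ^ L
  have hX0l : 0 ≤ Real.log ((X0 : ℝ) + 2) ^ L :=
    pow_nonneg (Real.log_nonneg (by linarith [Nat.cast_nonneg (α := ℝ) X0])) L
  refine ⟨B + 3 + Real.log (X0 + 2) ^ L, by positivity, fun X F hX hk hF => ?_⟩
  set N := bad F
  set P := Real.log (Real.log N + 3) ^ (8 * L) with hP
  have hN0 : N ≠ 0 := bad_ne_zero F hF
  have hl1 : 1 ≤ Real.log (Real.log N + 3) := by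
    have : 0 ≤ Real.log N := Real.log_nonneg (by exact_mod_cast Nat.one_le_iff_ne_zero.2 hN0)
    rw [Real.le_log_iff_exp_le (by linarith)]
    have := Real.exp_one_lt_d9
    linarith
  have hP1 : 1 ≤ P := one_le_pow₀ hl1
  have hB : 0 ≤ B := by positivity
  have hX2 : (2 : ℝ) ≤ X := by exact_mod_cast hX
  have hlX : 0 < Real.log X := Real.log_pos (by linarith)
  set G0 := (Icc 1 X).filter fun m => m.Prime ∧ ∀ f ∈ F, (f * m + 1).Prime
  have hXX : 0 ≤ (X : ℝ) / Real.log X ^ L := by positivity
  rw [show ∀ c : ℝ, c * X * P / Real.log X ^ L = c * ((X : ℝ) / Real.log X ^ L) * P from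
    fun c => by ring]
  by_cases hbig : X < X0
  · have h1 : Real.log X ^ L ≤ Real.log (X0 + 2) ^ L := by
      refine pow_le_pow_left₀ hlX.le (Real.log_le_log (by linarith) ?_) L
      have : (X : ℝ) ≤ X0 := by exact_mod_cast hbig.le
      linarith
    calc (G0.card : ℝ) ≤ X := by
          have : G0.card ≤ (Icc 1 X).card := card_filter_le _ _
          rw [Nat.card_Icc, Nat.add_sub_cancel] at this
          exact_mod_cast this
      _ = Real.log X ^ L * ((X : ℝ) / Real.log X ^ L) := by field_simp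
      _ ≤ (B + 3 + Real.log (X0 + 2) ^ L) * ((X : ℝ) / Real.log X ^ L) :=
          mul_le_mul_of_nonneg_right (by linarith) hXX
      _ ≤ _ := le_mul_of_one_le_right (by positivity) hP1
  rw [not_lt] at hbig
  obtain ⟨hlog, -⟩ := hX0 X hbig
  set R := (X : ℝ) ^ ((1 : ℝ) / 7) with hR
  have hR1 : 1 ≤ R := Real.one_le_rpow (by linarith) (by norm_num)
  set z := ⌊R⌋₊
  have hz : 1 ≤ z := Nat.le_floor (by simpa using hR1)
  have hzR : (z : ℝ) ≤ R := Nat.floor_le (by linarith)
  set W := (X : ℝ) ^ ((1 : ℝ) / (7 * L))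
  have hW1 : 1 ≤ W := Real.one_le_rpow (by linarith) (by positivity)
  set w := ⌊W⌋₊
  have hw : w ^ L ≤ z := by
    refine Nat.le_floor ?_
    push_cast
    calc (w : ℝ) ^ L ≤ W ^ L := by gcongr; exact Nat.floor_le (by linarith)
      _ = R := by
          rw [← Real.rpow_natCast, ← Real.rpow_mul (by linarith)]
          congr 1
          have : (L : ℝ) ≠ 0 := Nat.cast_ne_zero.2 (by omega)
          field_simp
  have hinj : Set.InjOn (prodForm F) (Icc 1 X : Finset ℕ) := by
    intro a ha b hb e
    have key : ∀ a b : ℕ, a < b → prodForm F a < prodForm F b := fun a b h =>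
      Nat.mul_lt_mul_of_lt_of_le h
        (prod_le_prod' fun f _ => by have := Nat.mul_le_mul_left f h.le; omega)
        (prod_pos fun f _ => by omega)
    rcases lt_trichotomy a b with h | h | h
    · exact absurd e (key a b h).ne
    · exact h
    · exact absurd e (key b a h).ne'
  let s : BoundingSieve :=
    { support := (Icc 1 X).image (prodForm F)
      prodPrimes := ∏ p ∈ sieved F z, p
      prodPrimes_squarefree := squarefree_prod_primes (fun p hp => (mem_filter.1 hp).2.1)
      weights := fun _ => 1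
      weights_nonneg := fun _ => zero_le_one
      totalMass := X
      nu := density F
      nu_mult := ArithmeticFunction.IsMultiplicative.prodPrimeFactors _
      nu_pos_of_prime := fun p hp _ => by
        rw [density_prime F hp]
        have := hp.pos
        positivity
      nu_lt_one_of_prime := fun p hp hd => by
        have hp' : p ∈ sieved F z := primeFactors_subset_sieved F hd
          (by rw [hp.primeFactors]; exact mem_singleton_self p)
        have hb := (coprime_bad F hp (mem_filter.1 hp').2.2).1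
        have : ((F.card : ℝ) + 1) < p := by exact_mod_cast hb
        rw [density_prime F hp, div_lt_one (lt_trans (by positivity) this)]
        exact this }
  have hnu : ∀ e, e ∣ s.prodPrimes → s.nu e = (roots F e : ℝ) / e ∧ 1 ≤ roots F e ∧ e ≠ 0 := by
    intro e he
    have hsq := BoundingSieve.squarefree_of_dvd_prodPrimes he
    have hsub : ∀ p ∈ e.primeFactors, p.Prime ∧ ¬ p ∣ bad F := fun p hp =>
      (mem_filter.1 (primeFactors_subset_sieved F he hp)).2
    have hr := roots_squarefree F e.primeFactors hsub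
    rw [Nat.prod_primeFactors_of_squarefree hsq] at hr
    refine ⟨?_, by rw [hr]; exact Nat.one_le_pow _ _ (by omega), hsq.ne_zero⟩
    show density F e = _
    rw [density, ArithmeticFunction.prodPrimeFactors_apply hsq.ne_zero, hr, prod_div_distrib,
      prod_const, ← Nat.cast_prod, Nat.prod_primeFactors_of_squarefree hsq]
    push_cast
    rfl
  have hb := P003.selberg_bound s z hz (fun e he => by
      rw [(hnu e he).1]
      gcongr
      exact_mod_cast (hnu e he).2.1)
    (fun e he => by
      have hm : s.multSum e = (((Icc 1 X).filter fun m => e ∣ prodForm F m).card : ℝ) := by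
        simp only [BoundingSieve.multSum, s]
        rw [sum_image hinj, ← sum_filter, sum_const, nsmul_eq_mul, mul_one]
      rw [BoundingSieve.rem, hm, (hnu e he).1, mul_comm]
      exact roots_rem F X (hnu e he).2.2)
    (Nat.cast_nonneg X)
  have hlow := selberg_lower_forms F s z w (hk ▸ hw) rfl rfl
  rw [hk, ← hL] at hlow
  set G := ∑ l ∈ s.prodPrimes.divisors with l ≤ z, s.selbergTerms l
  have hharm : Real.log X / (7 * L) ≤ ∑ a ∈ Icc 1 w, (a : ℝ)⁻¹ := by
    have h := log_add_one_le_harmonic w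
    rw [harmonic_eq_sum_Icc] at h
    push_cast at h
    refine le_trans ?_ h
    have h2 := Real.log_le_log (by linarith) (Nat.lt_floor_add_one W).le
    rw [Real.log_rpow (by linarith)] at h2
    rw [div_eq_mul_inv, mul_comm, ← one_div]
    exact h2
  have hcop : coprimeTo N w = (Icc 1 w).filter (fun a => ∀ p ∈ N.primeFactors, ¬ p ∣ a) := by
    refine filter_congr fun a ha => ?_
    refine ⟨fun h p hp hd => (Nat.prime_of_mem_primeFactors hp).ne_one
      (Nat.eq_one_of_dvd_coprimes h hd (Nat.dvd_of_mem_primeFactors hp)), fun h => ?_⟩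
    refine Nat.coprime_of_dvd fun p hp h1 h2 => h p ?_ h1
    exact Nat.mem_primeFactors.2 ⟨hp, h2, hN0⟩
  have hsift := harmonic_sift_le w N.primeFactors fun p hp => Nat.prime_of_mem_primeFactors hp
  rw [← hcop] at hsift
  set H := ∑ a ∈ coprimeTo N w, (a : ℝ)⁻¹
  have hH0 : 0 ≤ H := sum_nonneg fun _ _ => by positivity
  set D := ∏ p ∈ N.primeFactors, (1 - (p : ℝ)⁻¹)
  have hD : 0 < D := prod_pos fun p hp => by
    have : (p : ℝ)⁻¹ < 1 := inv_lt_one_of_one_lt₀
      (by exact_mod_cast (Nat.prime_of_mem_primeFactors hp).one_lt)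
    linarith
  have hDinv : D⁻¹ ≤ E * Real.log (Real.log N + 3) ^ 8 := by
    rw [← prod_inv_distrib]; exact hEu N hN0
  have hHlow : Real.log X ≤ 7 * L * E * Real.log (Real.log N + 3) ^ 8 * H := by
    have h1 : Real.log X / (7 * L) ≤ D⁻¹ * H := by
      rw [inv_mul_eq_div, le_div_iff₀ hD, mul_comm]
      exact (mul_le_mul_of_nonneg_left hharm hD.le).trans hsift
    rw [div_le_iff₀ (by positivity)] at h1
    calc Real.log X ≤ D⁻¹ * H * (7 * L) := h1
      _ ≤ E * Real.log (Real.log N + 3) ^ 8 * H * (7 * L) := by gcongr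
      _ = _ := by ring
  have hGb : Real.log X ^ L ≤ B * P * G := by
    calc Real.log X ^ L ≤ (7 * L * E * Real.log (Real.log N + 3) ^ 8 * H) ^ L :=
          pow_le_pow_left₀ hlX.le hHlow L
      _ = B * P * H ^ L := by rw [mul_pow, mul_pow, ← pow_mul]
      _ ≤ _ := mul_le_mul_of_nonneg_left hlow (by positivity)
  have hGpos : 0 < G := by
    have : 0 < Real.log X ^ L := by positivity
    have : 0 ≤ B * P := by positivity
    nlinarith
  have hmain : (X : ℝ) / G ≤ B * ((X : ℝ) / Real.log X ^ L) * P := by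
    rw [div_le_iff₀ hGpos]
    calc (X : ℝ) = (X : ℝ) / Real.log X ^ L * Real.log X ^ L := by field_simp
      _ ≤ (X : ℝ) / Real.log X ^ L * (B * P * G) := mul_le_mul_of_nonneg_left hGb hXX
      _ = _ := by ring
  have hcount : (G0.card : ℝ) ≤ z + s.siftedSum := by
    have hsub : G0 ⊆ Icc 1 z ∪
        (Icc 1 X).filter (fun m => Nat.Coprime (∏ p ∈ sieved F z, p) (prodForm F m)) := by
      intro m hm
      obtain ⟨hm, hp, hq⟩ := mem_filter.1 hm
      rcases le_or_gt m z with h | h
      · exact mem_union_left _ (mem_Icc.2 ⟨hp.one_lt.le, h⟩)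
      · refine mem_union_right _ (mem_filter.2 ⟨hm, ?_⟩)
        refine Nat.coprime_prod_left_iff.2 fun p hpz => ?_
        obtain ⟨hpz, hpp, -⟩ := mem_filter.1 hpz
        rw [mem_range] at hpz
        refine ((Nat.coprime_primes hpp hp).2 (by omega)).mul_right
          (Nat.Coprime.prod_right fun f hf => (Nat.coprime_primes hpp (hq f hf)).2 ?_)
        have hf0 : 1 ≤ f := Nat.one_le_iff_ne_zero.2 fun h => hF (h ▸ hf)
        have := Nat.le_mul_of_pos_left m hf0
        omega
    have hs : s.siftedSum =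
        (((Icc 1 X).filter fun m => Nat.Coprime (∏ p ∈ sieved F z, p) (prodForm F m)).card : ℝ) := by
      simp only [BoundingSieve.siftedSum, s]
      rw [sum_image hinj, ← sum_filter, sum_const, nsmul_eq_mul, mul_one]
    rw [hs]
    have := (card_le_card hsub).trans (card_union_le _ _)
    rw [Nat.card_Icc, Nat.add_sub_cancel] at this
    exact_mod_cast this
  have herr : (z : ℝ) + 2 * (z : ℝ) ^ 6 ≤ 3 * ((X : ℝ) / Real.log X ^ L) * P := by
    have hz1 : (1 : ℝ) ≤ z := by exact_mod_cast hz
    have h0 : (z : ℝ) ≤ (z : ℝ) ^ 6 := le_self_pow₀ hz1 (by norm_num)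
    have h1 : (z : ℝ) ^ 6 ≤ R ^ 6 := by gcongr
    have h2 : R ^ 6 * R = X := by
      rw [← pow_succ, hR, ← Real.rpow_natCast, ← Real.rpow_mul (by linarith)]
      norm_num
    have h3 : R ^ 6 ≤ (X : ℝ) / Real.log X ^ L := by
      rw [le_div_iff₀ (by positivity)]
      exact (mul_le_mul_of_nonneg_left hlog (by positivity)).trans h2.le
    calc (z : ℝ) + 2 * (z : ℝ) ^ 6 ≤ 3 * ((X : ℝ) / Real.log X ^ L) := by linarith
      _ ≤ _ := le_mul_of_one_le_right (by positivity) hP1
  have : s.totalMass = X := rfl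
  rw [this] at hb
  calc (G0.card : ℝ) ≤ (z : ℝ) + s.siftedSum := hcount
    _ ≤ (z : ℝ) + (X / G + 2 * (z : ℝ) ^ 6) := by linarith
    _ ≤ (B + 3) * ((X : ℝ) / Real.log X ^ L) * P := by rw [add_mul, add_mul]; linarith
    _ ≤ _ := by
        refine mul_le_mul_of_nonneg_right (mul_le_mul_of_nonneg_right ?_ hXX) (by linarith)
        linarith

end Vale.Agent.P031.Sieve
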