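import Vale.Agent.P003.PairSieve
import Mathlib.Analysis.Complex.ExponentialBounds

/-!
# P031: Euler products over the primes of a number and lower bounds for sieve sums
-/

namespace Vale.Agent.P031.Sieve

open Finset
open scoped ArithmeticFunction.Omega

/-- The reciprocal primes in a dyadic block sum to `O(1 / j)`. -/
theorem sum_dyadic_le {j : ℕ} (hj : 0 < j) :
    ∑ p ∈ (Ioc (2 ^ j) (2 ^ (j + 1))).filter Nat.Prime, (p : ℝ)⁻¹ ≤ 4 / j := by
  set S := (Ioc (2 ^ j) (2 ^ (j + 1))).filter Nat.Prime with hS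
  have hpow : 2 ^ (j * S.card) ≤ 2 ^ (2 ^ (j + 2)) := by
    calc 2 ^ (j * S.card) = ∏ _p ∈ S, 2 ^ j := by rw [prod_const, ← pow_mul]
      _ ≤ ∏ p ∈ S, p := prod_le_prod' fun p hp => by
          have := mem_Ioc.1 (mem_filter.1 hp).1; omega
      _ ≤ primorial (2 ^ (j + 1)) := by
          rw [primorial]
          refine prod_le_prod_of_subset_of_one_le' (fun p hp => ?_) fun p hp _ => ?_
          · obtain ⟨h1, h2⟩ := mem_filter.1 hp
            have := mem_Ioc.1 h1
            exact mem_filter.2 ⟨mem_range.2 (by omega), h2⟩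
          · exact (mem_filter.1 hp).2.one_le
      _ ≤ 4 ^ 2 ^ (j + 1) := primorial_le_four_pow _
      _ = _ := by rw [show (4 : ℕ) = 2 ^ 2 by norm_num, ← pow_mul, ← pow_succ']
  have hc : (j : ℝ) * S.card ≤ 4 * 2 ^ j := by
    have : j * S.card ≤ 2 ^ (j + 2) := (Nat.pow_le_pow_iff_right (by norm_num)).1 hpow
    have h' : ((j * S.card : ℕ) : ℝ) ≤ ((2 ^ (j + 2) : ℕ) : ℝ) := by exact_mod_cast this
    push_cast at h'
    rw [pow_add] at h'
    linarith
  calc ∑ p ∈ S, (p : ℝ)⁻¹ ≤ ∑ _p ∈ S, ((2 : ℝ) ^ j)⁻¹ := sum_le_sum fun p hp => by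
        refine inv_anti₀ (by positivity) ?_
        have := (mem_Ioc.1 (mem_filter.1 hp).1).1
        exact_mod_cast this.le
    _ = S.card / 2 ^ j := by rw [sum_const, nsmul_eq_mul, div_eq_mul_inv]
    _ ≤ _ := by
        rw [div_le_div_iff₀ (by positivity) (by exact_mod_cast hj)]
        linarith

/-- The reciprocal primes up to `2 ^ (J + 1)` sum to `O(log J)`. -/
theorem sum_primes_le (J : ℕ) :
    ∑ p ∈ (Icc 1 (2 ^ (J + 1))).filter Nat.Prime, (p : ℝ)⁻¹ ≤ 1 / 2 + 4 * (1 + Real.log (J + 1)) := by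
  have key : ∀ J : ℕ, ∑ p ∈ (Icc 1 (2 ^ (J + 1))).filter Nat.Prime, (p : ℝ)⁻¹
      ≤ 1 / 2 + ∑ j ∈ Icc 1 J, 4 / (j : ℝ) := by
    intro J
    induction J with
    | zero =>
      have : (Icc 1 (2 ^ (0 + 1))).filter Nat.Prime = {2} := by decide
      rw [this]; simp
    | succ J ih =>
      have hle : 2 ^ (J + 1) ≤ 2 ^ (J + 2) := Nat.pow_le_pow_right (by norm_num) (by omega)
      have e : (Icc 1 (2 ^ (J + 1 + 1))).filter Nat.Prime = (Icc 1 (2 ^ (J + 1))).filter Nat.Prime ∪
          (Ioc (2 ^ (J + 1)) (2 ^ (J + 1 + 1))).filter Nat.Prime := by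
        rw [← filter_union]
        congr 1
        ext p
        simp only [mem_Icc, mem_union, mem_Ioc]
        have := Nat.one_le_two_pow (n := J + 1)
        omega
      rw [e, sum_union (disjoint_filter_filter (disjoint_left.2 fun p hp hp' => by
        simp only [mem_Icc, mem_Ioc] at hp hp'; omega)), sum_Icc_succ_top (by omega)]
      linarith [sum_dyadic_le (show 0 < J + 1 by omega)]
  refine (key J).trans (add_le_add le_rfl ?_)
  have h := harmonic_le_one_add_log J
  rw [harmonic_eq_sum_Icc] at h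
  push_cast at h
  calc ∑ j ∈ Icc 1 J, 4 / (j : ℝ) = 4 * ∑ j ∈ Icc 1 J, (j : ℝ)⁻¹ := by
        rw [mul_sum]; simp [div_eq_mul_inv]
    _ ≤ 4 * (1 + Real.log (J + 1)) := by
        refine mul_le_mul_of_nonneg_left (h.trans ?_) (by norm_num)
        rcases Nat.eq_zero_or_pos J with rfl | hJ
        · simp
        · have : Real.log J ≤ Real.log (J + 1) :=
            Real.log_le_log (by exact_mod_cast hJ) (by linarith)
          linarith

/-- The Euler product over the primes of `N` is a power of `log log N`. -/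
theorem euler_prod_le : ∃ E : ℝ, 0 < E ∧ ∀ N : ℕ, N ≠ 0 →
    ∏ p ∈ N.primeFactors, (1 - (p : ℝ)⁻¹)⁻¹ ≤ E * Real.log (Real.log N + 3) ^ 8 := by
  refine ⟨Real.exp 11 * 4 ^ 8, by positivity, fun N hN => ?_⟩
  set T := N.primeFactors with hT
  set M := T.card + 1 with hM
  set J := Nat.log 2 M with hJ
  have hsum : ∑ p ∈ T, (p : ℝ)⁻¹ ≤ 11 / 2 + 4 * Real.log (J + 1) := by
    rw [← sum_filter_add_sum_filter_not T (fun p => p ≤ M)]
    have h1 : ∑ p ∈ T.filter (fun p => p ≤ M), (p : ℝ)⁻¹ ≤ 1 / 2 + 4 * (1 + Real.log (J + 1)) := by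
      refine le_trans ?_ (sum_primes_le J)
      refine sum_le_sum_of_subset_of_nonneg (fun p hp => ?_) fun _ _ _ => by positivity
      obtain ⟨h1, h2⟩ := mem_filter.1 hp
      have hpp := Nat.prime_of_mem_primeFactors h1
      refine mem_filter.2 ⟨mem_Icc.2 ⟨hpp.one_le, h2.trans ?_⟩, hpp⟩
      exact (Nat.lt_pow_succ_log_self (by norm_num) M).le
    have h2 : ∑ p ∈ T.filter (fun p => ¬ p ≤ M), (p : ℝ)⁻¹ ≤ 1 := by
      calc ∑ p ∈ T.filter (fun p => ¬ p ≤ M), (p : ℝ)⁻¹
          ≤ ∑ _p ∈ T.filter (fun p => ¬ p ≤ M), (M : ℝ)⁻¹ := sum_le_sum fun p hp => by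
            refine inv_anti₀ (by positivity) ?_
            exact_mod_cast (not_le.1 (mem_filter.1 hp).2).le
        _ ≤ (T.card : ℝ) * (M : ℝ)⁻¹ := by
            rw [sum_const, nsmul_eq_mul]
            gcongr
            exact filter_subset _ _
        _ ≤ 1 := by
            rw [mul_inv_le_iff₀ (by positivity), one_mul, hM]
            push_cast; linarith
    linarith
  have hprod : ∏ p ∈ T, (1 - (p : ℝ)⁻¹)⁻¹ ≤ Real.exp (2 * ∑ p ∈ T, (p : ℝ)⁻¹) := by
    rw [mul_sum, Real.exp_sum]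
    refine prod_le_prod (fun p hp => ?_) fun p hp => ?_
    · have : (p : ℝ)⁻¹ ≤ 1 := inv_le_one_of_one_le₀
        (by exact_mod_cast (Nat.prime_of_mem_primeFactors hp).one_le)
      exact inv_nonneg.2 (by linarith)
    · have hx : (p : ℝ)⁻¹ ≤ 1 / 2 := by
        rw [one_div]
        exact inv_anti₀ (by norm_num) (by exact_mod_cast (Nat.prime_of_mem_primeFactors hp).two_le)
      have hx0 : (0 : ℝ) ≤ (p : ℝ)⁻¹ := by positivity
      refine le_trans ?_ (Real.add_one_le_exp _)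
      rw [inv_le_iff_one_le_mul₀ (by linarith)]
      nlinarith
  have hJ1 : (0 : ℝ) < (J : ℝ) + 1 := by positivity
  refine hprod.trans ?_
  calc Real.exp (2 * ∑ p ∈ T, (p : ℝ)⁻¹) ≤ Real.exp (11 + 8 * Real.log (J + 1)) :=
        Real.exp_le_exp.2 (by linarith)
    _ = Real.exp 11 * ((J : ℝ) + 1) ^ 8 := by
        rw [Real.exp_add, ← Real.exp_log (pow_pos hJ1 8), Real.log_pow]
        norm_num
    _ ≤ _ := by
        rw [mul_assoc, ← mul_pow]
        gcongr
        have hN1 : (1 : ℝ) ≤ N := by exact_mod_cast Nat.one_le_iff_ne_zero.2 hN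
        have hl0 : 0 ≤ Real.log N := Real.log_nonneg hN1
        have hTc : (T.card : ℝ) * Real.log 2 ≤ Real.log N := by
          rw [← Real.log_pow]
          refine Real.log_le_log (by positivity) ?_
          have h : 2 ^ T.card ≤ N := by
            calc 2 ^ T.card = ∏ _p ∈ T, 2 := by rw [prod_const]
              _ ≤ ∏ p ∈ T, p := prod_le_prod' fun p hp => (Nat.prime_of_mem_primeFactors hp).two_le
              _ ≤ N := Nat.le_of_dvd (Nat.pos_of_ne_zero hN) (Nat.prod_primeFactors_dvd N)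
          exact_mod_cast h
        have hJc : (J : ℝ) * Real.log 2 ≤ Real.log M := by
          rw [← Real.log_pow]
          refine Real.log_le_log (by positivity) ?_
          exact_mod_cast Nat.pow_log_le_self 2 (show M ≠ 0 by omega)
        have l2 := Real.log_two_gt_d9
        have hMle : (M : ℝ) ≤ 2 * (Real.log N + 3) := by
          rw [hM]; push_cast
          have : (0 : ℝ) ≤ T.card := Nat.cast_nonneg _
          nlinarith
        have h3 : 1 ≤ Real.log (Real.log N + 3) := by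
          rw [Real.le_log_iff_exp_le (by linarith)]
          have := Real.exp_one_lt_d9
          linarith
        have h4 : Real.log M ≤ Real.log 2 + Real.log (Real.log N + 3) := by
          rw [← Real.log_mul (by norm_num) (by linarith)]
          exact Real.log_le_log (by positivity) hMle
        have hJ0 : (0 : ℝ) ≤ J := Nat.cast_nonneg J
        nlinarith [Real.log_two_lt_d9]

/-- Divisor sums of `j ^ Ω` are at most `(j + 1) ^ Ω`. -/
theorem sum_divisors_pow_Omega_le (j : ℕ) : ∀ m : ℕ, m ≠ 0 →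
    ∑ e ∈ m.divisors, (j : ℝ) ^ Ω e ≤ ((j : ℝ) + 1) ^ Ω m := by
  intro m
  induction m using Nat.strong_induction_on with
  | _ m ih =>
    intro hm
    rcases eq_or_ne m 1 with rfl | h1
    · simp
    set p := m.minFac
    have hp : p.Prime := Nat.minFac_prime h1
    obtain ⟨m', hm'⟩ : p ∣ m := Nat.minFac_dvd m
    have hm'0 : m' ≠ 0 := fun h => hm (by rw [hm', h, mul_zero])
    have hlt : m' < m := by
      rw [hm']
      exact lt_mul_left (Nat.pos_of_ne_zero hm'0) hp.one_lt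
    have hO : Ω m = Ω m' + 1 := by
      rw [hm', ArithmeticFunction.cardFactors_mul hp.ne_zero hm'0,
        ArithmeticFunction.cardFactors_apply_prime hp, add_comm]
    have hsub : m.divisors ⊆ m'.divisors ∪ m'.divisors.image (p * ·) := by
      intro e he
      obtain ⟨hd, -⟩ := Nat.mem_divisors.1 he
      rw [hm'] at hd
      rcases (Nat.coprime_or_dvd_of_prime hp e) with h | h
      · exact mem_union_left _ (Nat.mem_divisors.2 ⟨h.symm.dvd_of_dvd_mul_left hd, hm'0⟩)
      · obtain ⟨e', rfl⟩ := h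
        refine mem_union_right _ (mem_image.2 ⟨e', Nat.mem_divisors.2 ⟨?_, hm'0⟩, rfl⟩)
        exact Nat.dvd_of_mul_dvd_mul_left hp.pos hd
    calc ∑ e ∈ m.divisors, (j : ℝ) ^ Ω e
        ≤ ∑ e ∈ m'.divisors ∪ m'.divisors.image (p * ·), (j : ℝ) ^ Ω e :=
          sum_le_sum_of_subset_of_nonneg hsub fun _ _ _ => by positivity
      _ ≤ ∑ e ∈ m'.divisors, (j : ℝ) ^ Ω e + ∑ e ∈ m'.divisors.image (p * ·), (j : ℝ) ^ Ω e := by
          rw [← sum_union_inter]
          exact le_add_of_nonneg_right (sum_nonneg fun _ _ => by positivity)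
      _ = ((j : ℝ) + 1) * ∑ e ∈ m'.divisors, (j : ℝ) ^ Ω e := by
          rw [sum_image fun a _ b _ h => Nat.eq_of_mul_eq_mul_left hp.pos h, add_mul, one_mul,
            mul_sum, add_comm]
          refine congrArg₂ (· + ·) (sum_congr rfl fun e he => ?_) rfl
          rw [ArithmeticFunction.cardFactors_mul hp.ne_zero
            (Nat.pos_of_mem_divisors he).ne', ArithmeticFunction.cardFactors_apply_prime hp,
            pow_add, pow_one]
      _ ≤ ((j : ℝ) + 1) * ((j : ℝ) + 1) ^ Ω m' := by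
          gcongr
          exact ih m' hlt hm'0
      _ = _ := by rw [hO, pow_succ']

/-- The integers in `[1, w]` prime to `N`. -/
def coprimeTo (N w : ℕ) : Finset ℕ := (Icc 1 w).filter (Nat.Coprime · N)

/-- A power of the coprime harmonic sum is at most the sum of `L ^ Ω(n) / n`. -/
theorem harmonic_pow_le (N w : ℕ) (L : ℕ) :
    (∑ a ∈ coprimeTo N w, (a : ℝ)⁻¹) ^ L ≤
      ∑ n ∈ coprimeTo N (w ^ L), (L : ℝ) ^ Ω n / n := by
  induction L with
  | zero =>
    have : coprimeTo N 1 = {1} := by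
      ext a; simp only [coprimeTo, mem_filter, mem_Icc, mem_singleton]
      exact ⟨fun h => by omega, fun h => by subst h; simp⟩
    simp [this]
  | succ L ih =>
    set H := ∑ a ∈ coprimeTo N w, (a : ℝ)⁻¹
    have hH : 0 ≤ H := sum_nonneg fun _ _ => by positivity
    refine le_trans (le_of_eq (pow_succ' H L)) ((mul_le_mul_of_nonneg_left ih hH).trans ?_)
    simp only [H]
    rw [sum_mul_sum, ← sum_product']
    have hmap : ∀ x ∈ coprimeTo N w ×ˢ coprimeTo N (w ^ L), x.1 * x.2 ∈ coprimeTo N (w ^ (L + 1)) := by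
      rintro ⟨a, b⟩ hx
      simp only [coprimeTo, mem_product, mem_filter, mem_Icc] at hx ⊢
      obtain ⟨⟨⟨ha, ha'⟩, hca⟩, ⟨hb, hb'⟩, hcb⟩ := hx
      exact ⟨⟨Nat.one_le_iff_ne_zero.2 (Nat.mul_ne_zero (by omega) (by omega)),
        by rw [pow_succ']; exact Nat.mul_le_mul ha' hb'⟩, hca.mul_left hcb⟩
    rw [← sum_fiberwise_of_maps_to hmap]
    refine sum_le_sum fun m hm => ?_
    have hm0 : m ≠ 0 := by
      have := (mem_Icc.1 (mem_filter.1 hm).1).1; omega
    set Fb := (coprimeTo N w ×ˢ coprimeTo N (w ^ L)).filter fun x : ℕ × ℕ => x.1 * x.2 = m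
    have hinj : Set.InjOn Prod.snd (Fb : Set (ℕ × ℕ)) := by
      rintro ⟨a, b⟩ hx ⟨a', b'⟩ hx' (rfl : b = b')
      simp only [Fb, mem_coe, mem_filter] at hx hx'
      have hb : b ≠ 0 := fun h => hm0 (by rw [← hx.2, h, mul_zero])
      exact Prod.ext (Nat.eq_of_mul_eq_mul_right (Nat.pos_of_ne_zero hb) (hx.2.trans hx'.2.symm)) rfl
    calc ∑ x ∈ Fb, (x.1 : ℝ)⁻¹ * ((L : ℝ) ^ Ω x.2 / x.2)
        = ∑ e ∈ Fb.image Prod.snd, (L : ℝ) ^ Ω e / m := by
          rw [sum_image hinj]
          refine sum_congr rfl fun x hx => ?_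
          rw [← (mem_filter.1 hx).2, Nat.cast_mul]
          rw [mul_div_assoc', inv_mul_eq_div, div_div]
      _ ≤ ∑ e ∈ m.divisors, (L : ℝ) ^ Ω e / m := by
          refine sum_le_sum_of_subset_of_nonneg (fun e he => ?_) fun _ _ _ => by positivity
          obtain ⟨x, hx, rfl⟩ := mem_image.1 he
          exact Nat.mem_divisors.2 ⟨⟨x.1, by rw [mul_comm, (mem_filter.1 hx).2]⟩, hm0⟩
      _ ≤ _ := by
          rw [← sum_div]
          push_cast
          gcongr
          exact sum_divisors_pow_Omega_le L m hm0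

/-- Removing the multiples of the primes in `T` from the harmonic sum. -/
theorem harmonic_sift_le (w : ℕ) (T : Finset ℕ) (hT : ∀ p ∈ T, p.Prime) :
    (∏ p ∈ T, (1 - (p : ℝ)⁻¹)) * ∑ a ∈ Icc 1 w, (a : ℝ)⁻¹ ≤
      ∑ a ∈ (Icc 1 w).filter (fun a => ∀ p ∈ T, ¬ p ∣ a), (a : ℝ)⁻¹ := by
  induction T using Finset.induction_on with
  | empty => simp
  | insert q T hq ih =>
    have hqp := hT q (mem_insert_self _ _)
    have hT' : ∀ p ∈ T, p.Prime := fun p hp => hT p (mem_insert_of_mem hp)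
    set A := (Icc 1 w).filter fun a => ∀ p ∈ T, ¬ p ∣ a
    have h1 : (1 : ℝ) - (q : ℝ)⁻¹ ≥ 0 := by
      have : (q : ℝ)⁻¹ ≤ 1 := inv_le_one_of_one_le₀ (by exact_mod_cast hqp.one_le)
      linarith
    have h2 : ∑ a ∈ A.filter (q ∣ ·), (a : ℝ)⁻¹ ≤ (q : ℝ)⁻¹ * ∑ a ∈ A, (a : ℝ)⁻¹ := by
      calc ∑ a ∈ A.filter (q ∣ ·), (a : ℝ)⁻¹
          ≤ ∑ a ∈ A.image (q * ·), (a : ℝ)⁻¹ := by
            refine sum_le_sum_of_subset_of_nonneg (fun a ha => ?_) fun _ _ _ => by positivity
            obtain ⟨ha, b, rfl⟩ := mem_filter.1 ha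
            obtain ⟨hab, hn⟩ := mem_filter.1 ha
            obtain ⟨hb1, hb2⟩ := mem_Icc.1 hab
            refine mem_image.2 ⟨b, mem_filter.2 ⟨mem_Icc.2 ⟨?_, ?_⟩, fun p hp h => hn p hp (h.mul_left q)⟩, rfl⟩
            · exact Nat.one_le_iff_ne_zero.2 fun h => by simp [h] at hb1
            · exact (Nat.le_mul_of_pos_left b hqp.pos).trans hb2
        _ = _ := by
            rw [sum_image fun a _ b _ h => Nat.eq_of_mul_eq_mul_left hqp.pos h, mul_sum]
            refine sum_congr rfl fun a _ => ?_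
            push_cast
            rw [mul_inv]
    have h3 : (Icc 1 w).filter (fun a => ∀ p ∈ insert q T, ¬ p ∣ a) = A.filter (fun a => ¬ q ∣ a) := by
      ext a; simp only [A, mem_filter, forall_mem_insert]; tauto
    have h4 := sum_filter_add_sum_filter_not A (fun a => q ∣ a) fun a => (a : ℝ)⁻¹
    rw [h3, prod_insert hq, mul_assoc]
    calc (1 - (q : ℝ)⁻¹) * ((∏ p ∈ T, (1 - (p : ℝ)⁻¹)) * ∑ a ∈ Icc 1 w, (a : ℝ)⁻¹)
        ≤ (1 - (q : ℝ)⁻¹) * ∑ a ∈ A, (a : ℝ)⁻¹ := mul_le_mul_of_nonneg_left (ih hT') h1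
      _ ≤ _ := by rw [sub_mul, one_mul]; linarith

end Vale.Agent.P031.Sieve
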