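import Vale.Agent.P031.Sieve.Euler
import Mathlib.Algebra.Field.ZMod
import Mathlib.Tactic.LinearCombination

/-!
# P031: primes `q` with every `f * q + 1` prime, by Selberg's sieve
-/

namespace Vale.Agent.P031.Sieve

open Finset
open scoped ArithmeticFunction.Omega

variable (F : Finset ℕ)

/-- The product of the forms. -/
def prodForm (m : ℕ) : ℕ := m * ∏ f ∈ F, (f * m + 1)

/-- The number whose primes are not sieved. -/
def bad : ℕ := (F.card + 1).factorial * (∏ f ∈ F, f) *
  ∏ x ∈ F.offDiag, ((x.1 : ℤ) - x.2).natAbs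

theorem bad_ne_zero (hF : 0 ∉ F) : bad F ≠ 0 := by
  refine mul_ne_zero (mul_ne_zero (Nat.factorial_ne_zero _) ?_) ?_
  · exact prod_ne_zero_iff.2 fun f hf h => hF (h ▸ hf)
  · refine prod_ne_zero_iff.2 fun x hx => ?_
    have := (mem_offDiag.1 hx).2.2
    omega

theorem coprime_bad {p : ℕ} (hp : p.Prime) (hN : ¬ p ∣ bad F) :
    F.card + 1 < p ∧ (∀ f ∈ F, ¬ p ∣ f) ∧
      ∀ f ∈ F, ∀ g ∈ F, f ≠ g → ¬ (p : ℤ) ∣ (f : ℤ) - g := by
  refine ⟨?_, fun f hf h => hN ?_, fun f hf g hg hne h => hN ?_⟩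
  · by_contra hle
    exact hN (((hp.dvd_factorial).2 (by omega)).trans ((dvd_mul_right _ _).trans (dvd_mul_right _ _)))
  · exact (h.trans (dvd_prod_of_mem _ hf)).trans ((dvd_mul_left _ _).trans (dvd_mul_right _ _))
  · refine dvd_trans ?_ (dvd_mul_left _ _)
    exact (Int.natCast_dvd.1 h).trans
      (dvd_prod_of_mem (fun x : ℕ × ℕ => ((x.1 : ℤ) - x.2).natAbs) (mem_offDiag.2 ⟨hf, hg, hne⟩ : (f, g) ∈ F.offDiag))

/-- The number of roots of the product of the forms modulo `e`. -/
def roots (e : ℕ) : ℕ := Nat.count (fun r => e ∣ prodForm F r) e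

theorem prodForm_mod (e r : ℕ) : e ∣ prodForm F (r % e) ↔ e ∣ prodForm F r := by
  rw [← ZMod.natCast_eq_zero_iff, ← ZMod.natCast_eq_zero_iff]
  simp [prodForm, ZMod.natCast_mod]

theorem roots_mul {a b : ℕ} (ha : a ≠ 0) (hb : b ≠ 0) (hab : a.Coprime b) :
    roots F (a * b) = roots F a * roots F b := by
  simp only [roots, Nat.count_eq_card_filter_range, ← card_product]
  refine card_bij' (fun r _ => (r % a, r % b))
    (fun q _ => (Nat.chineseRemainder hab q.1 q.2 : ℕ)) ?_ ?_ ?_ ?_
  · intro r hr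
    simp only [mem_filter, mem_range] at hr
    simp only [mem_product, mem_filter, mem_range, prodForm_mod]
    exact ⟨⟨Nat.mod_lt _ (Nat.pos_of_ne_zero ha), (dvd_mul_right a b).trans hr.2⟩,
      Nat.mod_lt _ (Nat.pos_of_ne_zero hb), (dvd_mul_left b a).trans hr.2⟩
  · rintro ⟨x, y⟩ hxy
    simp only [mem_product, mem_filter, mem_range] at hxy
    simp only [mem_filter, mem_range]
    obtain ⟨hx, hy⟩ := (Nat.chineseRemainder hab x y).2
    refine ⟨Nat.chineseRemainder_lt_mul hab x y ha hb, hab.mul_dvd_of_dvd_of_dvd ?_ ?_⟩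
    · rw [← prodForm_mod, hx, prodForm_mod]; exact hxy.1.2
    · rw [← prodForm_mod, hy, prodForm_mod]; exact hxy.2.2
  · intro r hr
    simp only [mem_filter, mem_range] at hr
    obtain ⟨hx, hy⟩ := (Nat.chineseRemainder hab (r % a) (r % b)).2
    exact Nat.ModEq.eq_of_lt_of_lt ((Nat.modEq_and_modEq_iff_modEq_mul hab).1
      ⟨hx.trans (Nat.mod_modEq r a), hy.trans (Nat.mod_modEq r b)⟩)
      (Nat.chineseRemainder_lt_mul hab _ _ ha hb) hr.1
  · rintro ⟨x, y⟩ hxy
    simp only [mem_product, mem_filter, mem_range] at hxy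
    obtain ⟨hx, hy⟩ := (Nat.chineseRemainder hab x y).2
    exact Prod.ext (by simpa [Nat.ModEq, Nat.mod_eq_of_lt hxy.1.1] using hx)
      (by simpa [Nat.ModEq, Nat.mod_eq_of_lt hxy.2.1] using hy)

theorem roots_prime {p : ℕ} (hp : p.Prime) (hN : ¬ p ∣ bad F) : roots F p = F.card + 1 := by
  obtain ⟨hbig, hf0, hne⟩ := coprime_bad F hp hN
  have := Fact.mk hp
  set S : Finset (ZMod p) := insert 0 (F.image fun f : ℕ => -((f : ZMod p))⁻¹) with hS
  have hnz : ∀ f ∈ F, (f : ZMod p) ≠ 0 := fun f hf h =>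
    hf0 f hf ((ZMod.natCast_eq_zero_iff f p).1 h)
  have hScard : S.card = F.card + 1 := by
    rw [hS, card_insert_of_notMem, card_image_of_injOn]
    · intro f hf g hg h
      by_contra hfg
      refine hne f hf g hg hfg ?_
      rw [← ZMod.intCast_zmod_eq_zero_iff_dvd]
      push_cast
      rw [sub_eq_zero]
      exact inv_injective (neg_injective h : ((f : ZMod p))⁻¹ = (g : ZMod p)⁻¹)
    · intro h
      obtain ⟨f, hf, he⟩ := mem_image.1 h
      exact hnz f hf (inv_eq_zero.1 (neg_eq_zero.1 he : ((f : ZMod p))⁻¹ = 0))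
  have hmem : ∀ r : ℕ, p ∣ prodForm F r ↔ (r : ZMod p) ∈ S := by
    intro r
    rw [← ZMod.natCast_eq_zero_iff, hS, mem_insert, mem_image]
    simp only [prodForm]
    push_cast
    rw [mul_eq_zero, prod_eq_zero_iff]
    refine or_congr Iff.rfl ⟨?_, ?_⟩
    · rintro ⟨f, hf, h⟩
      refine ⟨f, hf, ?_⟩
      have := hnz f hf
      field_simp
      linear_combination -h
    · rintro ⟨f, hf, h⟩
      refine ⟨f, hf, ?_⟩
      have := hnz f hf
      rw [← h]
      field_simp
      ring
  rw [← hScard, roots, Nat.count_eq_card_filter_range]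
  refine card_bij' (fun r _ => (r : ZMod p)) (fun x _ => x.val) ?_ ?_ ?_ ?_
  · intro r hr; exact (hmem r).1 (mem_filter.1 hr).2
  · intro x hx
    refine mem_filter.2 ⟨mem_range.2 (ZMod.val_lt x), (hmem _).2 ?_⟩
    rwa [ZMod.natCast_zmod_val]
  · intro r hr
    exact ZMod.val_natCast_of_lt (mem_range.1 (mem_filter.1 hr).1)
  · intro x _; exact ZMod.natCast_zmod_val x

theorem roots_squarefree : ∀ T : Finset ℕ, (∀ p ∈ T, p.Prime ∧ ¬ p ∣ bad F) →
    roots F (∏ p ∈ T, p) = (F.card + 1) ^ T.card := by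
  intro T
  induction T using Finset.induction with
  | empty => intro _; simp [roots, prodForm]
  | insert q T hq ih =>
    intro hT
    obtain ⟨hqp, hqN⟩ := hT q (mem_insert_self _ _)
    have hT' : ∀ p ∈ T, p.Prime ∧ ¬ p ∣ bad F := fun p hp => hT p (mem_insert_of_mem hp)
    rw [prod_insert hq, roots_mul F hqp.ne_zero
      (prod_ne_zero_iff.2 fun p hp => (hT' p hp).1.ne_zero)
      (Nat.Coprime.prod_right fun p hp => (Nat.coprime_primes hqp (hT' p hp).1).2
        fun e => hq (e ▸ hp)), ih hT', roots_prime F hqp hqN, card_insert_of_notMem hq, pow_succ']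

/-- The number of values divisible by `e` in `[1, X]`. -/
theorem roots_rem (X : ℕ) {e : ℕ} (he : e ≠ 0) :
    |(((Icc 1 X).filter fun m => e ∣ prodForm F m).card : ℝ) - X * ((roots F e : ℝ) / e)| ≤
      2 * e := by
  set q : ℕ → Prop := fun r => e ∣ prodForm F r with hq
  have per : ∀ k j, q (k * e + j) ↔ q j := fun k j => by
    simp only [hq]
    rw [← prodForm_mod, Nat.mul_add_mod_self_right, prodForm_mod]
  have hcount : ∀ k j, Nat.count q (k * e + j) = k * roots F e + Nat.count q j := by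
    intro k j
    induction k with
    | zero => simp
    | succ k ih =>
      rw [show (k + 1) * e + j = e + (k * e + j) by ring, Nat.count_add]
      have : Nat.count (fun i => q (e + i)) (k * e + j) = Nat.count q (k * e + j) := by
        simp only [Nat.count_eq_card_filter_range]
        exact congrArg card (filter_congr fun i _ => by simpa using per 1 i)
      rw [this, ih]
      change roots F e + _ = _
      ring
  have hA : ((Icc 1 X).filter q).card + 1 = Nat.count q (X + 1) := by
    rw [Nat.count_eq_card_filter_range, show range (X + 1) = insert 0 (Icc 1 X) by ext; simp; omega,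
      filter_insert, if_pos (by simp [hq, prodForm]), card_insert_of_notMem (by simp)]
  have hdiv : (X + 1) / e * e + (X + 1) % e = X + 1 := Nat.div_add_mod' _ _
  have hc : Nat.count q (X + 1) = (X + 1) / e * roots F e + Nat.count q ((X + 1) % e) := by
    rw [← hcount, hdiv]
  have hlt : (X + 1) % e < e := Nat.mod_lt _ (Nat.pos_of_ne_zero he)
  have hcle : Nat.count q ((X + 1) % e) ≤ roots F e := Nat.count_monotone q hlt.le
  have hρe : roots F e ≤ e := Nat.count_le _
  rw [← hA] at hc
  set k := (X + 1) / e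
  set r := (X + 1) % e
  set c := Nat.count q r
  have hc' : (((Icc 1 X).filter q).card : ℝ) + 1 = k * roots F e + c := by exact_mod_cast hc
  have hX : (X : ℝ) = k * e + r - 1 := by
    have : (k : ℝ) * e + r = X + 1 := by exact_mod_cast hdiv
    linarith
  have e0 : (0 : ℝ) < e := by exact_mod_cast Nat.pos_of_ne_zero he
  have h1 : (c : ℝ) ≤ roots F e := by exact_mod_cast hcle
  have h2 : (roots F e : ℝ) ≤ e := by exact_mod_cast hρe
  have h3 : (r : ℝ) ≤ e := by exact_mod_cast hlt.le
  have h4 : (r : ℝ) * ((roots F e : ℝ) / e) ≤ e := by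
    calc (r : ℝ) * ((roots F e : ℝ) / e) ≤ e * ((roots F e : ℝ) / e) := by gcongr
      _ = roots F e := by field_simp
      _ ≤ e := h2
  have h5 : (roots F e : ℝ) / e ≤ 1 := (div_le_one e0).2 h2
  have h6 : 0 ≤ (r : ℝ) * ((roots F e : ℝ) / e) := by positivity
  have h7 : 0 ≤ (roots F e : ℝ) / e := by positivity
  have h8 : (1 : ℝ) ≤ e := by exact_mod_cast Nat.pos_of_ne_zero he
  have h9 : (0 : ℝ) ≤ c := Nat.cast_nonneg c
  have hk : (k : ℝ) * e * ((roots F e : ℝ) / e) = k * roots F e := by field_simp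
  rw [abs_le, hX]
  constructor <;> nlinarith

/-- The sieve density. -/
noncomputable def density : ArithmeticFunction ℝ :=
  ArithmeticFunction.prodPrimeFactors fun p => ((F.card : ℝ) + 1) / p

theorem density_prime {p : ℕ} (hp : p.Prime) : density F p = ((F.card : ℝ) + 1) / p := by
  rw [density, ArithmeticFunction.prodPrimeFactors_apply hp.ne_zero, hp.primeFactors, prod_singleton]

/-- The primes that are sieved. -/
def sieved (z : ℕ) : Finset ℕ := (range (z + 1)).filter fun p => p.Prime ∧ ¬ p ∣ bad F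

theorem primeFactors_subset_sieved {z e : ℕ} (he : e ∣ ∏ p ∈ sieved F z, p) :
    e.primeFactors ⊆ sieved F z := by
  have hP : (∏ p ∈ sieved F z, p) ≠ 0 :=
    prod_ne_zero_iff.2 fun p hp => (mem_filter.1 hp).2.1.ne_zero
  exact (Nat.primeFactors_mono he hP).trans
    (Nat.primeFactors_prod fun p hp => (mem_filter.1 hp).2.1).le

/-- The Selberg sum is at least a power of the harmonic sum prime to `bad F`. -/
theorem selberg_lower_forms (s : BoundingSieve) (z w : ℕ) (hw : w ^ (F.card + 1) ≤ z)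
    (hP : s.prodPrimes = ∏ p ∈ sieved F z, p) (hnu : s.nu = density F) :
    (∑ a ∈ coprimeTo (bad F) w, (a : ℝ)⁻¹) ^ (F.card + 1) ≤
      ∑ l ∈ s.prodPrimes.divisors with l ≤ z, s.selbergTerms l := by
  refine (harmonic_pow_le (bad F) w (F.card + 1)).trans ?_
  have hmem : ∀ n ∈ coprimeTo (bad F) (w ^ (F.card + 1)),
      n ≠ 0 ∧ n ≤ z ∧ n.primeFactors ⊆ sieved F z := by
    intro n hn
    obtain ⟨hn, hc⟩ := mem_filter.1 hn
    obtain ⟨h1, h2⟩ := mem_Icc.1 hn
    refine ⟨by omega, h2.trans hw, fun p hp => ?_⟩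
    have hpp := Nat.prime_of_mem_primeFactors hp
    refine mem_filter.2 ⟨mem_range.2 ?_, hpp, fun h => hpp.ne_one ?_⟩
    · have := Nat.le_of_mem_primeFactors hp; omega
    · exact Nat.eq_one_of_dvd_coprimes hc (Nat.dvd_of_mem_primeFactors hp) h
  have hmap : ∀ n ∈ coprimeTo (bad F) (w ^ (F.card + 1)),
      ∏ p ∈ n.primeFactors, p ∈ s.prodPrimes.divisors.filter (· ≤ z) := by
    intro n hn
    obtain ⟨h0, h2, hs⟩ := hmem n hn
    refine mem_filter.2 ⟨Nat.mem_divisors.2 ⟨?_, BoundingSieve.prodPrimes_ne_zero⟩,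
      (Nat.le_of_dvd (Nat.pos_of_ne_zero h0) (Nat.prod_primeFactors_dvd n)).trans h2⟩
    rw [hP]
    exact prod_dvd_prod_of_subset _ _ _ hs
  rw [← sum_fiberwise_of_maps_to hmap]
  refine sum_le_sum fun l hl => ?_
  have hlP := Nat.dvd_of_mem_divisors (mem_filter.1 hl).1
  have hl0 : l ≠ 0 := ne_zero_of_dvd_ne_zero BoundingSieve.prodPrimes_ne_zero hlP
  set x : ℕ → ℝ := fun p => ((F.card : ℝ) + 1) / p
  set K := (coprimeTo (bad F) (w ^ (F.card + 1))).filter fun n => ∏ p ∈ n.primeFactors, p = l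
  have hK : ∀ n ∈ K, n ≠ 0 ∧ n ≤ z ∧ n.primeFactors = l.primeFactors := by
    intro n hn
    obtain ⟨hn, hrl⟩ := mem_filter.1 hn
    refine ⟨(hmem n hn).1, (hmem n hn).2.1, ?_⟩
    rw [← hrl]
    exact (Nat.primeFactors_prod fun p hp => Nat.prime_of_mem_primeFactors hp).symm
  calc ∑ n ∈ K, ((F.card + 1 : ℕ) : ℝ) ^ Ω n / n
      = ∑ n ∈ K, n.factorization.prod fun p k => x p ^ k := by
        refine sum_congr rfl fun n hn => ?_
        have h0 := (hK n hn).1
        rw [ArithmeticFunction.cardFactors_eq_sum_factorization]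
        conv_lhs => arg 2; rw [← Nat.prod_factorization_pow_eq_self h0]
        simp only [Finsupp.prod, Finsupp.sum, x, div_pow, prod_div_distrib, Nat.cast_prod,
          Nat.cast_pow, prod_pow_eq_pow_sum, Nat.cast_add, Nat.cast_one]
    _ ≤ ∏ p ∈ l.primeFactors, ∑ k ∈ Icc 1 z, x p ^ k := by
        refine P003.sum_le_box _ (fun p => by positivity) _ _ _ (fun n hn => (hK n hn).1)
          (fun n hn => (hK n hn).2.2.le) fun n hn p hp => mem_Icc.2 ⟨?_, ?_⟩
        · rw [← (hK n hn).2.2] at hp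
          exact (Nat.prime_of_mem_primeFactors hp).factorization_pos_of_dvd (hK n hn).1
            (Nat.dvd_of_mem_primeFactors hp)
        · exact (Nat.factorization_lt p (hK n hn).1).le.trans (hK n hn).2.1
    _ ≤ ∏ p ∈ l.primeFactors, x p * (1 - x p)⁻¹ := by
        refine prod_le_prod (fun p _ => sum_nonneg fun k _ => by positivity) fun p hp => ?_
        have hp' := primeFactors_subset_sieved F (hP ▸ hlP) hp
        refine P003.geom_Icc_le (by positivity) ?_ z
        have hb := (coprime_bad F (mem_filter.1 hp').2.1 (mem_filter.1 hp').2.2).1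
        have : ((F.card : ℝ) + 1) < p := by exact_mod_cast hb
        simp only [x]
        rw [div_lt_one (lt_trans (by positivity) this)]
        exact this
    _ = s.selbergTerms l := by
        rw [BoundingSieve.selbergTerms_apply, hnu, density,
          ArithmeticFunction.prodPrimeFactors_apply hl0, prod_mul_distrib]
        refine congrArg _ (prod_congr rfl fun p hp => ?_)
        rw [ArithmeticFunction.prodPrimeFactors_apply (Nat.prime_of_mem_primeFactors hp).ne_zero,
          (Nat.prime_of_mem_primeFactors hp).primeFactors, prod_singleton]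

end Vale.Agent.P031.Sieve
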